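import Vale.Agent.P040.MathlibUsed

/-!
# Drawings of graphs in the plane
-/

namespace Vale.Agent.P040

/-- The plane. -/
abbrev Plane := ℝ × ℝ

/-- `S` is a simple continuous arc from `p` to `q`. -/
def IsArc (S : Set Plane) (p q : Plane) : Prop :=
  ∃ γ : ℝ → Plane, ContinuousOn γ (Set.Icc 0 1) ∧ Set.InjOn γ (Set.Icc 0 1) ∧
    γ 0 = p ∧ γ 1 = q ∧ γ '' Set.Icc 0 1 = S

/-- `S` and `T` cross properly (transversally) at `x`: some homeomorphism from a neighbourhood
of `x` onto an open set of the plane takes `x` to the origin, `S` to the horizontal axis and `T`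
to the vertical axis. -/
def CrossAt (S T : Set Plane) (x : Plane) : Prop :=
  ∃ φ : OpenPartialHomeomorph Plane Plane, x ∈ φ.source ∧ φ x = (0, 0) ∧
    (∀ y ∈ φ.source, y ∈ S ↔ (φ y).2 = 0) ∧ (∀ y ∈ φ.source, y ∈ T ↔ (φ y).1 = 0)

/-- A drawing of the graph `G` in the plane. -/
structure Drawing {V : Type} (G : SimpleGraph V) where
  /-- the positions of the vertices -/
  pos : V → Plane
  pos_inj : Function.Injective pos
  /-- the arc of each edge (values at pairs which are not edges are irrelevant) -/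
  arc : Sym2 V → Set Plane
  isArc : ∀ u v, G.Adj u v → IsArc (arc s(u, v)) (pos u) (pos v)
  /-- an edge contains no vertex other than its ends -/
  avoid : ∀ e ∈ G.edgeSet, ∀ w, pos w ∈ arc e → w ∈ e
  /-- the interiors of two edges meet in finitely many points -/
  finite : ∀ e ∈ G.edgeSet, ∀ f ∈ G.edgeSet, e ≠ f →
    ((arc e \ Set.range pos) ∩ (arc f \ Set.range pos)).Finite
  /-- each such point is a proper crossing -/
  proper : ∀ e ∈ G.edgeSet, ∀ f ∈ G.edgeSet, e ≠ f →
    ∀ x ∈ (arc e \ Set.range pos) ∩ (arc f \ Set.range pos), CrossAt (arc e) (arc f) x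
  /-- ... of exactly two edges -/
  two : ∀ e ∈ G.edgeSet, ∀ f ∈ G.edgeSet, ∀ g ∈ G.edgeSet, e ≠ f → e ≠ g → f ≠ g →
    ∀ x, x ∉ Set.range pos → x ∈ arc e → x ∈ arc f → x ∉ arc g

namespace Drawing

variable {V : Type} {G : SimpleGraph V} (D : Drawing G)

/-- The set of crossing points: common interior points of two distinct edges. -/
def crossingSet : Set Plane :=
  {x | x ∉ Set.range D.pos ∧ ∃ e ∈ G.edgeSet, ∃ f ∈ G.edgeSet, e ≠ f ∧ x ∈ D.arc e ∧ x ∈ D.arc f}

/-- The number `c(D)` of crossing points of the drawing. -/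
noncomputable def crossings : ℕ := D.crossingSet.ncard

/-- A drawing is rectilinear if every edge is a straight line segment. -/
def Rectilinear : Prop :=
  ∀ u v, G.Adj u v → D.arc s(u, v) = segment ℝ (D.pos u) (D.pos v)

end Drawing

end Vale.Agent.P040
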