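import Vale.Agent.P040.Drawing

/-!
# Classes of drawings in the plane
-/

namespace Vale.Agent.P040

/-- The complete bipartite graph with classes of `m` and `n` vertices. -/
abbrev K (m n : ℕ) : SimpleGraph (Fin m ⊕ Fin n) := completeBipartiteGraph (Fin m) (Fin n)

/-- Zarankiewicz's number `d_m d_n`. -/
def zar (m n : ℕ) : ℕ := (m / 2) * ((m - 1) / 2) * ((n / 2) * ((n - 1) / 2))

namespace Drawing

variable {V : Type} {G : SimpleGraph V} (D : Drawing G)

/-- Some homeomorphism of the plane takes the drawing to one in which every edge meets every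
vertical line at most once. -/
def Monotone : Prop :=
  ∃ ψ : Plane ≃ₜ Plane, ∀ u v, G.Adj u v →
    ∀ p ∈ D.arc s(u, v), ∀ q ∈ D.arc s(u, v), (ψ p).1 = (ψ q).1 → p = q

/-- Some homeomorphism of the plane takes the drawing to one in which every edge lies in the
closed strip between the vertical lines through its two ends, which are different lines. -/
def XBounded : Prop :=
  ∃ ψ : Plane ≃ₜ Plane, ∀ u v, G.Adj u v → (ψ (D.pos u)).1 ≠ (ψ (D.pos v)).1 ∧
    ∀ p ∈ D.arc s(u, v), min (ψ (D.pos u)).1 (ψ (D.pos v)).1 ≤ (ψ p).1 ∧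
      (ψ p).1 ≤ max (ψ (D.pos u)).1 (ψ (D.pos v)).1

/-- Some homeomorphism of the plane takes the drawing to one in which all vertices lie on the
horizontal axis and every edge lies in the closed upper or in the closed lower half-plane. -/
def TwoPage : Prop :=
  ∃ ψ : Plane ≃ₜ Plane, (∀ v, (ψ (D.pos v)).2 = 0) ∧ ∀ u v, G.Adj u v →
    (∀ p ∈ D.arc s(u, v), 0 ≤ (ψ p).2) ∨ (∀ p ∈ D.arc s(u, v), (ψ p).2 ≤ 0)

/-- Two edges with a common end among the `m` vertices of the first class meet only there. -/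
def Uncrossed {m n : ℕ} (D : Drawing (K m n)) : Prop :=
  ∀ a b b', b ≠ b' → ∀ p ∈ D.arc s(Sum.inl a, Sum.inr b),
    p ∈ D.arc s(Sum.inl a, Sum.inr b') → p = D.pos (Sum.inl a)

end Drawing

end Vale.Agent.P040
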