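import Vale.Agent.P040.MathlibUsed
import Vale.Agent.P040.Drawing

/-!
# Elementary facts on drawings
-/

namespace Vale.Agent.P040

namespace Drawing

variable {V : Type} {G : SimpleGraph V} (D : Drawing G)

theorem crossingSet_finite [Finite V] : D.crossingSet.Finite := by
  have : D.crossingSet ⊆ ⋃ e ∈ G.edgeSet, ⋃ f ∈ {f | f ∈ G.edgeSet ∧ e ≠ f},
      (D.arc e \ Set.range D.pos) ∩ (D.arc f \ Set.range D.pos) := by
    rintro x ⟨hx, e, he, f, hf, hef, h1, h2⟩
    simp only [Set.mem_iUnion]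
    exact ⟨e, he, f, ⟨hf, hef⟩, ⟨h1, hx⟩, ⟨h2, hx⟩⟩
  apply Set.Finite.subset _ this
  apply Set.Finite.biUnion (Set.toFinite _)
  intro e he
  apply Set.Finite.biUnion (Set.toFinite _)
  rintro f ⟨hf, hef⟩
  exact D.finite e he f hf hef

/-- Two pairs of distinct edges with a common crossing point are equal. -/
theorem pair_unique {x : Plane} (hx : x ∉ Set.range D.pos) {e f e' f' : Sym2 V}
    (he : e ∈ G.edgeSet) (hf : f ∈ G.edgeSet) (he' : e' ∈ G.edgeSet) (hf' : f' ∈ G.edgeSet)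
    (hef : e ≠ f) (hef' : e' ≠ f') (h1 : x ∈ D.arc e) (h2 : x ∈ D.arc f) (h3 : x ∈ D.arc e')
    (h4 : x ∈ D.arc f') : (e = e' ∧ f = f') ∨ (e = f' ∧ f = e') := by
  by_cases c1 : e = e'
  · left
    refine ⟨c1, ?_⟩
    by_contra c2
    subst c1
    exact D.two e he f hf f' hf' hef hef' c2 x hx h1 h2 h4
  · by_cases c2 : f = e'
    · right
      refine ⟨?_, c2⟩
      by_contra c3
      subst c2
      exact D.two f hf e he f' hf' (Ne.symm hef) hef' c3 x hx h2 h1 h4
    · exact absurd h3 (D.two e he f hf e' he' hef c1 c2 x hx h1 h2)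

/-- Two edges without common ends whose arcs meet have a crossing point. -/
theorem exists_crossing {e f : Sym2 V} (he : e ∈ G.edgeSet) (hf : f ∈ G.edgeSet)
    (hef : ∀ v, v ∈ e → v ∉ f) (h : (D.arc e ∩ D.arc f).Nonempty) :
    ∃ x, x ∉ Set.range D.pos ∧ x ∈ D.arc e ∧ x ∈ D.arc f := by
  obtain ⟨x, h1, h2⟩ := h
  refine ⟨x, ?_, h1, h2⟩
  rintro ⟨w, rfl⟩
  exact hef w (D.avoid e he w h1) (D.avoid f hf w h2)

end Drawing

end Vale.Agent.P040
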