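import Mathlib.Algebra.GroupWithZero.Action.Pointwise.Finset
import Mathlib.Algebra.Module.Torsion.Prod
import Mathlib.Algebra.Order.Chebyshev
import Mathlib.Algebra.Order.Quantale
import Mathlib.Algebra.Order.Ring.Star
import Mathlib.Algebra.Order.Star.Real
import Mathlib.Algebra.Ring.IsFormallyReal
import Mathlib.Analysis.CStarAlgebra.Classes
import Mathlib.Analysis.Complex.BranchLogRoot
import Mathlib.Analysis.Convex.Contractible
import Mathlib.Analysis.InnerProductSpace.PiL2
import Mathlib.Combinatorics.SimpleGraph.Basic
import Mathlib.Data.Fin.Tuple.Sort
import Mathlib.Data.Int.Star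
import Mathlib.LinearAlgebra.Complex.FiniteDimensional
import Mathlib.Order.CompletePartialOrder
import Mathlib.Order.CountableDenseLinearOrder
import Mathlib.Order.Filter.Germ.Basic
import Mathlib.RingTheory.Etale.Weakly
import Mathlib.RingTheory.Flat.TorsionFree
import Mathlib.RingTheory.SimpleRing.Principal
import Mathlib.RingTheory.TotallySplit
import Mathlib.Tactic
import Mathlib.Topology.Algebra.ProperAction.Basic

/-! The part of Mathlib that the development of this folder uses. -/
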